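import Vale.Agent.P284.H650.T.Spec
import Vale.Agent.P284.H625.N.Out
import Vale.Agent.P284.H837.N.End

/-!
# P284 (helper837), T3⁺, (N4): the end

Leaf data of full rank on `(Y, G)`, natural for `Γ`, with local finiteness modulo `{c = 0, ρ = 1}`,
contradict `NoV n X`.
-/

open scoped Manifold ContDiff Topology InnerProductSpace
open Filter Set Metric

noncomputable section

set_option linter.unusedSectionVars false

namespace Vale.Agent.P284.H837.T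

open Vale.Agent.P272.K Vale.Agent.P284.H894 Vale.Agent.P284.H894.G Vale.Agent.P284.H894.V
  Vale.Agent.P284.H894.W Vale.Agent.P284.H573 Vale.Agent.P284.H395 Vale.Agent.P284.H378
  Vale.Agent.P284.H837 Vale.Agent.P284.H501.Core Vale.Agent.P284.H885 Vale.Agent.P284.H619
  Vale.Agent.P284.H988.N Vale.Agent.P284.H625.N Vale.Agent.P284.H501.T Vale.Agent.P284.H837.N
  Vale.Agent.P284.H494.N Vale.Agent.P284.H494 Vale.Agent.P284.H478.G Vale.Agent.P284.H650.T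
  Vale.Agent.P284.H625

section
variable {n q r m : ℕ} {X Y E Γ : Type} [TopologicalSpace X] [TopologicalSpace Y]
  [ChartedSpace (Cm n) X] [ChartedSpace (Cm n) Y] [IsManifold 𝓘(ℂ, Cm n) ω X]
  [IsManifold 𝓘(ℂ, Cm n) ω Y]
  [TopologicalSpace E] [Group Γ] [MulAction Γ E] {p : E → X} {pY : E → Y} {π : Y → X}
  {F : E → Cm q} {G : Subgroup Γ} [Fintype (Γ ⧸ G)] [G.Normal]
  {A : Γ →* (Cm q ≃ₗ[ℂ] Cm q)} {c : Γ → Cm q}
  {w : Chart n X → Cm n → Matrix (Fin n) (Fin n) ℂ} {B : ℝ}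
  {Wt : Type} [NormedAddCommGroup Wt] [InnerProductSpace ℂ Wt] [CompleteSpace Wt]
  {ρt : Γ →* (Wt ≃ₗᵢ[ℂ] Wt)}
  {Θt : E → Chart n X → (Cm n →L[ℂ] Wt)}
  {H : Type} [NormedAddCommGroup H] [InnerProductSpace ℂ H] [CompleteSpace H]

/-- `leaf_out` (helper625) from the change of charts and the equivariance of `Θt` -/
theorem leaf_out' [Nonempty E] (het : H885.Etale n π) (hpi : ∀ y, π (pY y) = p y)
    (hG : IsGalois Γ p) (hGY : IsGalois G pY) (hF : HolB p w F B)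
    (hFA : ∀ g y, F (g • y) = A g (F y) + c g)
    (hchg : ∀ y, Reg (n := n) p F y → ChgV p F Θt y)
    (hequi : ∀ (γ : Γ) y e, Reg (n := n) p F y → At e (p y) → ∀ ξ ∈ VS p F y e,
      Θt (γ • y) e ξ = ρt γ (Θt y e ξ))
    {v : E → Chart n Y → (Fin (q + r) → Cm n) → H} {U : G → (H →ₗᵢ[ℂ] H)}
    {N : Cm 0 →L[ℂ] Cm q} {𝒢 : Set E}
    (hL : LeafE (q + r) pY F m v U (ρt.comp G.subtype) (pb π Θt) N 𝒢) :
    ∃ V : E → Chart n X → (Fin (q + r) → Cm n) → Tot G H,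
      HForm n (q + r) m p (Tot G H) V ∧ Eqv Γ p V ∧ H837.N.BrEq π pY V (pb π V) ∧
      ∃ (Ut : G → (Tot G H →ₗᵢ[ℂ] Tot G H)) (𝒢t : Set E), 𝒢t.Nonempty ∧
        LeafE (q + r) pY F m (pb π V) Ut (ρt.comp G.subtype) (pb π Θt) N 𝒢t := by
  have hY := hGY.cov.continuous
  have hpg : ∀ (g : G) (y : E), pY (g • y) = pY y := fun g y =>
    ((hGY.orb y (g • y)).2 ⟨g, rfl⟩).symm
  have hA : ∀ γ y, F (γ • y) = (fun g => A g) γ (F y) + c γ := hFA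
  have h1 := leafP_fl het hGY.cov.isLocalHomeomorph hpi hpg (fun y hy =>
    chgV_pb het hpi (hchg y ((reg_fl het hpi).1 hy))) hL.toP
  have h2 : LeafP (q + r) p F m (fl pY π v) U (ρt.comp G.subtype) Θt N 𝒢 := by
    refine leafP_congr hG.cov.isLocalHomeomorph (fun y e hy he ξ hξ => ?_) h1
    obtain ⟨h3, h4⟩ := br_at het hpi he
    exact (pbT_eq het hpi (hchg y hy) h3 h4 hξ).symm
  have hHE : HolE n p F := fun y e he => by
    obtain ⟨f, h1, h2⟩ := H221.holB_an hF y he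
    exact ⟨f, h2, h1⟩
  have h3 := leafP_sumV hG hHE hA (fun y e e' hy he he' ξ hξ => hchg y hy e e' he he' ξ hξ)
    hequi h2
  have h4 := leafP_pb het hY hG.cov.isLocalHomeomorph hpi hchg h3
  have hn : ∀ (g : G) y e, At e (p y) → ∀ ξ, ‖fl pY π v ((g : Γ) • y) e ξ‖ = ‖fl pY π v y e ξ‖ :=
    fun g y e he ξ => by
      have := h2.equi g y e he ξ
      rw [show ((g : Γ) • y : E) = g • y from rfl, this, LinearIsometry.norm_map]
  have hV := sumV_hform (G := G) hG h2.form hn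
  have hV' := hV.change
  refine ⟨sumV G (fl pY π v), hV, sumV_eqv (G := G) (U := U) hG fun g y e he ξ =>
    h2.equi g y e he ξ, fun y e' e he hb ξ => pb_eq het hpi hV' he hb ξ, _, _, ?_,
    h4.toE fun y y₁ e he hy ξ => ?_⟩
  · exact Thin.nonempty hGY.cov h4.good
  · obtain ⟨h5, -⟩ := base_at het hpi he
    exact hV.inv y y₁ _ h5 (by rw [← hpi, ← hpi, hy]) ξ

end

section
variable {n q R m : ℕ} {X Y E Γ H : Type} [TopologicalSpace X] [TopologicalSpace Y]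
  [ChartedSpace (Cm n) X] [ChartedSpace (Cm n) Y] [TopologicalSpace E] [Group Γ] [MulAction Γ E]
  [NormedAddCommGroup H] [InnerProductSpace ℂ H] {π : Y → X} {p : E → X} {pY : E → Y}
  {v : E → Chart n X → (Fin R → Cm n) → H} {v' : E → Chart n Y → (Fin R → Cm n) → H}
  {F : E → Cm q}

/-- local finiteness under the whole group, modulo a subgroup of `G` -/
theorem lfin_bigS (hπ : Etale n π) (hcomp : ∀ y, π (pY y) = p y) (hG : IsGalois Γ p)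
    (hpY : IsCoveringMap pY) (G : Subgroup Γ) (hfi : G.FiniteIndex) (S₁ : Subgroup G)
    (hSF : ∀ g ∈ S₁, ∀ y, F (g • y) = F y)
    (hSv : ∀ g ∈ S₁, ∀ y e, At e (p y) → ∀ ξ, v (g • y) e ξ = v y e ξ)
    (hv : HForm n R m p H v) (hrel : BrEq π pY v v') (N : Cm 0 →L[ℂ] Cm q)
    (hlf : ∀ (D : LeafDat q R 0 H), (∀ x, D.N x = N) → ∃ r₀ > 0, ∀ K₀ : Set E, IsCompact K₀ →
      (∀ y ∈ K₀, NZ pY v' y) →
      {a : G ⧸ S₁ | ∃ g : G, (g : G ⧸ S₁) = a ∧ ∃ y ∈ K₀, ∃ b ∈ ball D.b₀ r₀,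
        Sh pY v' F D (g⁻¹ • y) b}.Finite) :
    LFin Γ m p v F := by
  classical
  refine ⟨S₁.map G.subtype, ?_, ?_, fun y₀ e b γ t h => ?_⟩
  · rintro _ ⟨g, hg, rfl⟩ y
    exact hSF g hg y
  · rintro _ ⟨g, hg, rfl⟩ y e he ξ
    exact hSv g hg y e he ξ
  set D : LeafDat q R 0 H :=
    { b₀ := b (e (p y₀)), γ := γ, t := t, N := fun _ => N, γan := h.nf.γan, imm := h.nf.imm,
      tan := h.tan, Nan := analyticAt_const, inj := fun _ _ _ => Subsingleton.elim _ _ } with hD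
  obtain ⟨r₀, hr₀, hfin⟩ := hlf D fun _ => rfl
  have : LocallyCompactSpace X := ChartedSpace.locallyCompactSpace (Cm n) X
  obtain ⟨K₁, hK₁, hK₁c, hK₁z⟩ := exists_cpt hG.cov (nz_near hG.cov hv h.nf)
  have hfq : Finite (Γ ⧸ G) := Subgroup.finite_quotient_of_finiteIndex
  let τ : Γ ⧸ G → Γ := Quotient.out
  set K₀ : Set E := ⋃ a : Γ ⧸ G, (fun y => (τ a)⁻¹ • y) '' K₁ with hK₀
  have hK₀c : IsCompact K₀ := isCompact_iUnion fun a => hK₁c.image (hG.cont _)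
  have hK₀z : ∀ y ∈ K₀, NZ pY v' y := by
    intro y hy
    obtain ⟨a, z, hz, rfl⟩ := mem_iUnion.1 hy
    obtain ⟨e₁, he₁, ξ, hξ⟩ := hK₁z z hz
    refine nz_Y hπ hcomp hrel ⟨e₁, ?_, ξ, ?_⟩
    · show At e₁ (p ((τ a)⁻¹ • z))
      rw [H10.p_smul' hG]
      exact he₁
    · have h1 := hv.inv z ((τ a)⁻¹ • z) e₁ he₁ (H10.p_smul' hG _ _).symm ξ
      rw [← norm_ne_zero_iff] at hξ ⊢
      rwa [← h1]
  have hA := hfin K₀ hK₀c hK₀z
  set AA : Set (G ⧸ S₁) := {a : G ⧸ S₁ | ∃ g : G, (g : G ⧸ S₁) = a ∧ ∃ y ∈ K₀,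
    ∃ b ∈ ball D.b₀ r₀, Sh pY v' F D (g⁻¹ • y) b} with hAdef
  let ψ : Γ ⧸ G → G ⧸ S₁ → Γ ⧸ (S₁.map G.subtype) := fun a x =>
    ((τ a * ((Quotient.out x : G) : Γ) : Γ) : Γ ⧸ (S₁.map G.subtype))
  have hψ : ∀ (a : Γ ⧸ G) (g : G), ψ a (g : G ⧸ S₁) =
      ((τ a * (g : Γ) : Γ) : Γ ⧸ (S₁.map G.subtype)) := by
    intro a g
    have h1 : ((Quotient.out (g : G ⧸ S₁) : G) : G ⧸ S₁) = (g : G ⧸ S₁) := Quotient.out_eq _
    have h2 : (Quotient.out (g : G ⧸ S₁) : G)⁻¹ * g ∈ S₁ := QuotientGroup.eq.1 h1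
    refine QuotientGroup.eq.2 ?_
    refine ⟨(Quotient.out (g : G ⧸ S₁) : G)⁻¹ * g, h2, ?_⟩
    show (((Quotient.out (g : G ⧸ S₁) : G)⁻¹ * g : G) : Γ) =
      (τ a * ((Quotient.out (g : G ⧸ S₁) : G) : Γ))⁻¹ * (τ a * (g : Γ))
    rw [mul_inv_rev, mul_assoc, inv_mul_cancel_left]
    rfl
  have hfin2 : (⋃ a : Γ ⧸ G, ψ a '' AA).Finite := finite_iUnion fun a => hA.image _
  refine ⟨r₀, hr₀, K₁, hK₁, hfin2.subset ?_⟩
  rintro _ ⟨g, rfl, y, hy, x, hx, hsh⟩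
  have hmem : (τ (g : Γ ⧸ G))⁻¹ * g ∈ G := by
    rw [← QuotientGroup.eq]
    exact Quotient.out_eq _
  refine mem_iUnion.2 ⟨(g : Γ ⧸ G), ((⟨(τ (g : Γ ⧸ G))⁻¹ * g, hmem⟩ : G) : G ⧸ S₁),
    ⟨_, rfl, ?_⟩, ?_⟩
  · refine ⟨(τ (g : Γ ⧸ G))⁻¹ • y, mem_iUnion.2 ⟨_, y, hy, rfl⟩, x, hx, ?_⟩
    have h1 : ((⟨(τ (g : Γ ⧸ G))⁻¹ * g, hmem⟩ : G)⁻¹ • (τ (g : Γ ⧸ G))⁻¹ • y : E) = g⁻¹ • y := by
      rw [Subgroup.smul_def, smul_smul]
      congr 1
      simp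
    rw [h1]
    exact sh_Y hπ hcomp hpY hrel D hsh
  · rw [hψ]
    show ((τ (g : Γ ⧸ G) * ((τ (g : Γ ⧸ G))⁻¹ * g) : Γ) : Γ ⧸ (S₁.map G.subtype)) = _
    rw [mul_inv_cancel_left]

end

/-- the package `KPkg` from the standing data and the output of the limit -/
theorem kpkg_of (hFix : FixStmt) {n q : ℕ} {X : Type} [TopologicalSpace X] [T2Space X]
    [CompactSpace X] [ConnectedSpace X] [ChartedSpace (Cm n) X] [IsManifold 𝓘(ℂ, Cm n) ω X]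
    {w : Chart n X → Cm n → Matrix (Fin n) (Fin n) ℂ} {E Γ : Type} [TopologicalSpace E]
    [ConnectedSpace E] [Group Γ] [MulAction Γ E] {p : E → X} {F : E → Cm q} {c : Γ → Cm q}
    {K : Subgroup Γ} (hS : Std w p F c K)
    {W : Type} [NormedAddCommGroup W] [InnerProductSpace ℂ W] [CompleteSpace W]
    {π : Γ →* (W ≃ₗᵢ[ℂ] W)} {S : E → Chart n X → Cm n [⋀^Fin (q + 1)]→L[ℂ] W}
    {Θ : E → Chart n X → (Cm n →L[ℂ] W)} {J : W →SL[starRingEnd ℂ] W}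
    (hJ : JDat p F c π S Θ J) : KPkg Γ q c K := by
  refine ⟨hS.lat, ⟨fun k hk g => (hS.ker _).2 ?_⟩, hS.fg, ?_, fun g hg => (hS.ker g).1 hg,
    ⟨{1}, finite_singleton _, fun g hg => ⟨1, rfl, ?_⟩⟩, hS.nvi⟩
  · rw [hS.lat.conj]
    exact (hS.ker k).1 hk
  · by_contra hfin
    rw [not_infinite_iff_finite] at hfin
    have h0 : ∀ x : W, x = 0 := fun x =>
      hFix n q X w E Γ p F c K hS W π S Θ J hJ ⊥ bot_le inferInstance x fun g hg => by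
        rw [Subgroup.mem_bot] at hg
        rw [hg, map_one]
        rfl
    obtain ⟨y, e, -, ξ, hne⟩ := hJ.rel.ne
    exact hne (h0 _)
  · rw [inv_one, one_mul]
    exact (hS.ker g).2 hg

/-- **(N4)** -/
theorem endStmt_of (hPb : PbStmt) (hTh : ThStmt) (hDK : DKG'Stmt) (hFix : FixStmt)
    (hLFK : LFKStmt) : EndStmt := by
  intro n q X _ _ _ _ _ _ hX w E Γ _ _ _ _ p F G K A c hS W _ _ _ ρ S Θ J T hJ Y _ _ _ _ _ _ pY π
    hπ hπc hpY hcomp r m H _ _ _ v U N 𝒢 hL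
  have hGn := hS.dat.normal
  have hGf := hS.dat.fi
  have iFin : Fintype (Γ ⧸ G) := Subgroup.fintypeQuotientOfFiniteIndex
  obtain ⟨B, hFB⟩ := hS.hol
  obtain ⟨hStd, -, hPbJ⟩ := hPb n q X w E Γ p F G K A c hS Y pY π hπ hπc hpY hcomp
  obtain ⟨hJY, -, -⟩ := hPbJ W ρ S Θ J T hJ
  obtain ⟨hM, hThE, -, -, htriv⟩ := hTh n q Y (pull π w) E G pY F (fun g : G => c g)
    (K.subgroupOf G) hStd W (ρ.comp G.subtype) (pb π S) (pb π Θ) J hJY
  have hKP := kpkg_of hFix hStd hJY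
  obtain ⟨V, hV, -, hbr, Ut, 𝒢t, h𝒢t, hLt⟩ :=
    leaf_out' hπ hcomp hS.gal hpY hFB hS.eqv hJ.chg hJ.equi hL
  have hDK1 : DK1 pY F (fun g : G => c g) m (pb π V) Ut (ρ.comp G.subtype) (pb π Θ) N
      (q + (r + 1)) 𝒢t := by
    intro g hg hnear
    filter_upwards [hDK n q (r + 1) 0 (q + (r + 1)) m Y (pull π w) hStd.kah E G pY hpY F
      (fun g : G => c g) (K.subgroupOf G) hStd.hol hStd.eqv hKP hStd.fr hStd.conn hStd.reg W
      (Tot G H) (ρ.comp G.subtype) (pb π Θ) (RV n pY F)ᶜ hM hThE (pb π V) Ut N 𝒢t hLt g hg hnear]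
      with j hj
    exact htriv (g j) hj
  -- the subgroup
  let S₁ : Subgroup G :=
    { carrier := {g | c g = 0 ∧ (ρ.comp G.subtype) g = 1}
      mul_mem' := by
        rintro a b ⟨h1, h2⟩ ⟨h3, h4⟩
        refine ⟨?_, by rw [map_mul, h2, h4, one_mul]⟩
        have := hStd.lat.add a b
        show c ((a * b : G) : Γ) = 0
        rw [this, h1, h3, add_zero]
      one_mem' := ⟨hStd.lat.map_one, map_one _⟩
      inv_mem' := by
        rintro a ⟨h1, h2⟩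
        refine ⟨?_, by rw [map_inv, h2, inv_one]⟩
        have := hStd.lat.map_inv a
        show c ((a⁻¹ : G) : Γ) = 0
        rw [this, h1, neg_zero] }
  have hS₁ : ∀ g, g ∈ S₁ ↔ c (g : Γ) = 0 ∧ (ρ.comp G.subtype) g = 1 := fun g => Iff.rfl
  have hFX : ∀ (y : E) (e : Chart n X), At e (p y) → ∃ f : Cm n → Cm q,
      (∀ᶠ y' in 𝓝 y, F y' = f (e (p y'))) ∧ AnalyticAt ℂ f (e (p y)) := by
    intro y e he
    obtain ⟨f, h1, h2⟩ := H221.holB_an hFB y he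
    exact ⟨f, h2, h1⟩
  obtain ⟨y₀, hy₀⟩ := h𝒢t
  refine noV_noeqv hX E Γ p hS.gal q F hFX (aff_of hS.eqv) (Tot G H) (q + (r + 1)) m (by omega)
    hLt.m_pos V hV ?_ ?_
  · obtain ⟨y, e', b, γ, t, h⟩ := nff_of_leaf hLt hy₀
    have hx : ∀ y', e' (pY y') = base π e' (p y') := fun y' => by
      rw [hπ.apply_base h.nf.mem, hcomp]
    refine ⟨y, base π e', b, γ, t, isNF_X hπ hcomp h.nf, by rw [← hx]; exact h.tan, ?_⟩
    filter_upwards [h.eq] with y' hy'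
    rw [← hx]; exact hy'
  · refine lfin_bigS hπ hcomp hS.gal hpY.cov G hGf S₁ (fun g hg y => ?_) (fun g hg y e he ξ => ?_)
      hV hbr N fun D hD => ?_
    · have h1 := hStd.eqv g y
      rw [h1, ((hS₁ g).1 hg).1, add_zero]
    · obtain ⟨h1, h2⟩ := br_at hπ hcomp he
      have h3 := hLt.triv g ((hS₁ g).1 hg).2 y _ h1 ξ
      rw [hbr y _ e h1 h2] at h3
      have h4 : pY (g • y) = pY y := ((hpY.orb y (g • y)).2 ⟨g, rfl⟩).symm
      rw [hbr (g • y) _ e (by rw [h4]; exact h1) h2] at h3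
      exact h3
    · exact hLFK n q (r + 1) m Y (pull π w) E G pY F (fun g : G => c g) (K.subgroupOf G) hStd W
        (Tot G H) (ρ.comp G.subtype) (pb π Θ) (pb π V) Ut N 𝒢t hLt hDK1 D hD S₁ hS₁

end Vale.Agent.P284.H837.T
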